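import Vale.Agent.P254.Hull

/-!
P254: the strong isotropic constant inequality, with its equality case, for polytopes
with at most `n + 2` vertices.
-/

namespace Vale.Agent.P254

open MeasureTheory Matrix Finset
open scoped Nat

variable {n : ℕ}

lemma hull_self (v : Fin (n + 1) → Fin n → ℝ) :
    hull v (v 0) = convexHull ℝ (Set.range v) := by
  refine congrArg _ (Set.Subset.antisymm ?_ ?_)
  · rintro _ ⟨k, rfl⟩
    cases k with
    | none => exact ⟨0, rfl⟩
    | some i => exact ⟨i, rfl⟩
  · rintro _ ⟨i, rfl⟩; exact ⟨some i, rfl⟩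

/-- The value for every simplex. -/
lemma isotropicConst_simplex {v : Fin (n + 1) → Fin n → ℝ} (hv : (vmat v).det ≠ 0) :
    isotropicConst (convexHull ℝ (Set.range v)) =
      ((n ! : ℝ) ^ (n + 3) * ((n : ℝ) + 2) / ((n + 2)! : ℝ) ^ (n + 1)) ^ (1 / (2 * (n : ℝ))) := by
  have hb : bary v (v 0) = Pi.single 0 1 :=
    bary_eq hv (by simp) (by simp [Pi.single_apply])
  have hn : ∀ i, neg' (bary v (v 0)) i = 0 := fun i => by
    rw [hb, neg', max_eq_right]
    by_cases h : i = 0 <;> simp [h]
  rw [← hull_self, isotropicConst_hull hv (P := 0) (R := 0) (Q := ∑ i, pos' (bary v (v 0)) i ^ 2)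
    (by simp [hn]) (by simp [hn]) rfl]
  norm_num

lemma sum_sq_le_sq {ι : Type*} [Fintype ι] {f : ι → ℝ} (hf : ∀ i, 0 ≤ f i) :
    ∑ i, f i ^ 2 ≤ (∑ i, f i) ^ 2 :=
  sum_sq_le_sq_sum_of_nonneg fun i _ => hf i

/-- The bound and the equality case for the hull of a simplex and a point. -/
lemma hull_le (hn : 1 ≤ n) {v : Fin (n + 1) → Fin n → ℝ} (hv : (vmat v).det ≠ 0)
    (q : Fin n → ℝ) {u : Fin (n + 1) → Fin n → ℝ} (hu : (vmat u).det ≠ 0) :
    isotropicConst (hull v q) ≤ isotropicConst (convexHull ℝ (Set.range u)) ∧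
    (isotropicConst (hull v q) = isotropicConst (convexHull ℝ (Set.range u)) →
      IsSimplex (hull v q)) := by
  obtain ⟨hμ1, hμ2⟩ := bary_spec hv q
  set μ := bary v q with hμ
  set P := ∑ i, neg' μ i with hP
  set R := ∑ i, neg' μ i ^ 2 with hR
  set Q := ∑ i, pos' μ i ^ 2 with hQ
  have hP0 : 0 ≤ P := sum_nonneg fun i _ => le_max_right _ _
  have hpos : ∑ i, pos' μ i = 1 + P := by
    have h : ∀ i, pos' μ i = μ i + neg' μ i := fun i => by
      rcases le_total 0 (μ i) with h | h
      · simp [pos', neg', max_eq_left h, max_eq_right (neg_nonpos.2 h)]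
      · simp [pos', neg', max_eq_right h, max_eq_left (neg_nonneg.2 h)]
    simp only [h, sum_add_distrib, hμ1, hP]
  have hQle : Q ≤ (1 + P) ^ 2 := hpos ▸ sum_sq_le_sq fun i => le_max_right _ _
  have hR0 : 0 ≤ R := sum_nonneg fun i _ => sq_nonneg _
  have hQ0 : 0 ≤ Q := sum_nonneg fun i _ => sq_nonneg _
  have hRP : R ≤ P ^ 2 := sum_sq_le_sq fun i => le_max_right _ _
  have h1P : 0 < (1 + P) ^ 2 := by positivity
  set t := (1 + R) / (1 + P) ^ 2 with ht
  set s := Q / (1 + P) ^ 2 with hs
  have ht1 : t ≤ 1 := (div_le_one h1P).2 (by nlinarith)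
  have hs1 : s ≤ 1 := (div_le_one h1P).2 hQle
  have ht0 : 0 ≤ t := div_nonneg (by linarith) h1P.le
  have hs0 : 0 ≤ s := div_nonneg hQ0 h1P.le
  set c := (n ! : ℝ) ^ (n + 3) * ((n : ℝ) + 2) / ((n + 2)! : ℝ) ^ (n + 1) with hc
  have hc0 : 0 < c := by positivity
  have hr0 : 0 ≤ 1 - (1 - t) * (1 - s) := by nlinarith
  have hr1 : 1 - (1 - t) * (1 - s) ≤ 1 :=
    sub_le_self _ (mul_nonneg (by linarith) (by linarith))
  have hK : isotropicConst (hull v q) = (c * (1 - (1 - t) * (1 - s))) ^ (1 / (2 * (n : ℝ))) :=
    isotropicConst_hull hv hP hR hQ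
  have hn' : (0 : ℝ) < n := Nat.cast_pos.2 hn
  rw [hK, isotropicConst_simplex hu, ← hc]
  refine ⟨Real.rpow_le_rpow (mul_nonneg hc0.le hr0) (by nlinarith) (by positivity), fun heq => ?_⟩
  have h1 : (1 - t) * (1 - s) = 0 := by
    have := (Real.rpow_left_inj (mul_nonneg hc0.le hr0) hc0.le (by positivity)).1 heq
    nlinarith
  rcases mul_eq_zero.1 h1 with h | h
  · -- `q` lies in the simplex
    have e : 1 + R = (1 + P) ^ 2 := (div_eq_one_iff_eq h1P.ne').1 (by linarith)
    have hPz : P = 0 := by nlinarith
    refine ⟨v, (affineIndependent_iff_det v).2 hv, Set.Subset.antisymm ?_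
      (piece_subset (v := v) (q := q) none)⟩
    refine convexHull_min ?_ (convex_convexHull ℝ _)
    rintro _ ⟨k, rfl⟩
    cases k with
    | some i => exact subset_convexHull ℝ _ ⟨i, rfl⟩
    | none =>
      refine (mem_convexHull_range _ _).2 ⟨μ, fun i => ?_, hμ1, hμ2⟩
      have := (sum_eq_zero_iff_of_nonneg fun j _ => le_max_right (-μ j) 0).1 hPz i (mem_univ i)
      have := le_max_left (-μ i) 0
      linarith
  · -- exactly one positive coordinate: that vertex is redundant
    have hs' : Q = (1 + P) ^ 2 := (div_eq_one_iff_eq h1P.ne').1 (by linarith)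
    obtain ⟨i, hi⟩ : ∃ i, 0 < μ i := by
      by_contra hcon
      push Not at hcon
      have : ∑ k, μ k ≤ 0 := sum_nonpos fun k _ => hcon k
      linarith
    have hother : ∀ j, j ≠ i → μ j ≤ 0 := fun j hj => by
      by_contra hcon
      have hterm : ∀ k ∈ (univ : Finset (Fin (n + 1))), 0 ≤ pos' μ k * (1 + P - pos' μ k) :=
        fun k _ => mul_nonneg (le_max_right _ _) (by
          rw [← hpos, sub_nonneg]
          exact single_le_sum (fun l _ => le_max_right (μ l) 0) (mem_univ k))
      have h0 : ∑ k, pos' μ k * (1 + P - pos' μ k) = 0 := by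
        simp only [mul_sub, sum_sub_distrib, ← sum_mul, hpos, ← sq, ← hQ, hs', sub_self]
      have hii := (sum_eq_zero_iff_of_nonneg hterm).1 h0 i (mem_univ i)
      have hpair : pos' μ i + pos' μ j ≤ 1 + P := by
        rw [← hpos, ← sum_pair hj.symm]
        exact sum_le_univ_sum_of_nonneg (fun l => le_max_right (μ l) 0)
      rw [pos', max_eq_left hi.le] at hii hpair
      rw [pos', max_eq_left (le_of_lt (not_le.1 hcon))] at hpair
      rcases mul_eq_zero.1 hii with h' | h' <;> linarith
    have hdet : (vmat (Function.update v i q)).det ≠ 0 := by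
      rw [det_vmat_update hv]; exact mul_ne_zero hv hi.ne'
    refine ⟨Function.update v i q, (affineIndependent_iff_det _).2 hdet, Set.Subset.antisymm ?_
      (piece_subset (v := v) (q := q) (some i))⟩
    refine convexHull_min ?_ (convex_convexHull ℝ _)
    rintro _ ⟨k, rfl⟩
    cases k with
    | none => exact subset_convexHull ℝ _ ⟨i, by simp⟩
    | some j =>
      by_cases hj : j = i
      · subst hj
        refine (mem_convexHull_range _ _).2
          ⟨fun k => (if k = j then 1 else -μ k) / μ j, fun k => ?_, ?_, ?_⟩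
        · refine div_nonneg ?_ hi.le
          split_ifs with hk
          · exact zero_le_one
          · linarith [hother k hk]
        · rw [← sum_div, div_eq_one_iff_eq hi.ne']
          have e : ∀ k, (if k = j then 1 else -μ k) = -μ k + if k = j then 1 + μ k else 0 :=
            fun k => by split_ifs <;> ring
          simp only [e, sum_add_distrib, sum_neg_distrib, hμ1, sum_ite_eq', mem_univ, if_true]
          ring
        · have e : ∀ k, ((if k = j then 1 else -μ k) / μ j) • Function.update v j q k =
              (μ j)⁻¹ • ((if k = j then q + μ j • v j else 0) - μ k • v k) := fun k => by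
            by_cases hk : k = j
            · subst hk
              simp
            · simp [hk, div_eq_inv_mul, mul_smul]
          show ∑ k, _ • Function.update v j q k = Option.elim' q v (some j)
          simp only [e, ← smul_sum, sum_sub_distrib, sum_ite_eq', mem_univ, if_true, hμ2,
            add_sub_cancel_left, inv_smul_smul₀ hi.ne', Option.elim'_some]
      · exact subset_convexHull ℝ _ ⟨j, by simp [hj]⟩

end Vale.Agent.P254

namespace Vale.Agent.Results.P254.FewVertices

open MeasureTheory Vale.Agent.P254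

/-- In every dimension, a convex body spanned by at most `n + 2` points has isotropic constant at
most that of a simplex, with equality only for simplices. -/
theorem result : ∀ n : ℕ, 1 ≤ n → ∀ s : Finset (Fin n → ℝ), s.card ≤ n + 2 →
    (interior (convexHull ℝ (s : Set (Fin n → ℝ)))).Nonempty →
    ∀ u : Fin (n + 1) → (Fin n → ℝ), AffineIndependent ℝ u →
      isotropicConst (convexHull ℝ (s : Set (Fin n → ℝ))) ≤
          isotropicConst (convexHull ℝ (Set.range u)) ∧
        (isotropicConst (convexHull ℝ (s : Set (Fin n → ℝ))) =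
            isotropicConst (convexHull ℝ (Set.range u)) →
          IsSimplex (convexHull ℝ (s : Set (Fin n → ℝ)))) := by
  classical
  intro n hn s hs hint u hu
  obtain ⟨t, hts, b, hb⟩ := AffineBasis.exists_affine_subbasis
    (interior_convexHull_nonempty_iff_affineSpan_eq_top.1 hint)
  have : Fintype t := (s.finite_toSet.subset hts).fintype
  have hcard : Fintype.card t = n + 1 := by
    rw [b.card_eq_finrank_add_one, Module.finrank_fin_fun]
  set e : Fin (n + 1) ≃ t := (Fintype.equivFinOfCardEq hcard).symm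
  set v : Fin (n + 1) → Fin n → ℝ := fun k => (e k : Fin n → ℝ) with hvdef
  have hrange : Set.range v = t := by
    ext x
    exact ⟨fun ⟨k, hk⟩ => hk ▸ (e k).2, fun hx => ⟨e.symm ⟨x, hx⟩, by simp [v]⟩⟩
  have hv : AffineIndependent ℝ v := by
    have hv' := b.ind.comp_embedding e.toEmbedding
    simpa [Function.comp_def, hb] using hv'
  have hrest : (s \ t.toFinset).card ≤ 1 := by
    rw [Finset.card_sdiff_of_subset (fun x hx => hts (Set.mem_toFinset.1 hx)), Set.toFinset_card,
      hcard]
    omega
  obtain ⟨q, hq⟩ : ∃ q, (s : Set (Fin n → ℝ)) = Set.range (Option.elim' q v) := by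
    have hsub : ∀ q, Set.range (Option.elim' q v) = insert q t := fun q => by
      ext x
      simp only [Set.mem_range, Option.exists, Option.elim'_none, Option.elim'_some,
        Set.mem_insert_iff, ← hrange]
      simp [eq_comm]
    rcases (s \ t.toFinset).eq_empty_or_nonempty with h | ⟨q, hq⟩
    · refine ⟨v 0, ?_⟩
      rw [hsub, Set.insert_eq_of_mem (hrange ▸ Set.mem_range_self 0)]
      refine Set.Subset.antisymm (fun x hx => ?_) hts
      by_contra hxt
      have : x ∈ s \ t.toFinset := Finset.mem_sdiff.2 ⟨hx, fun h' => hxt (Set.mem_toFinset.1 h')⟩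
      simp [h] at this
    · refine ⟨q, ?_⟩
      obtain ⟨hqs, hqt⟩ := Finset.mem_sdiff.1 hq
      rw [hsub]
      refine Set.Subset.antisymm (fun x hx => ?_) (Set.insert_subset hqs hts)
      by_contra hxt
      simp only [Set.mem_insert_iff, not_or] at hxt
      exact hxt.1 (Finset.card_le_one.1 hrest x
        (Finset.mem_sdiff.2 ⟨hx, fun h' => hxt.2 (Set.mem_toFinset.1 h')⟩) q hq)
  rw [hq]
  exact hull_le hn ((affineIndependent_iff_det v).1 hv) q ((affineIndependent_iff_det u).1 hu)

end Vale.Agent.Results.P254.FewVertices
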