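import Vale.Agent.P254.OneSym.Main

/-!
P254: the strong isotropic constant inequality, strictly, for convex bodies invariant under
permutations and sign changes of the coordinates, in every large dimension.
-/

namespace Vale.Agent.Results.P254.OneSymmetricLarge

open Vale.Agent.P254

/-- For `n ≥ 10 ^ 14`, a convex body invariant under coordinate permutations and sign changes has
isotropic constant strictly below that of a simplex. -/
theorem result : ∀ n : ℕ, 100000000000000 ≤ n → ∀ K : Set (Fin n → ℝ),
    IsCompact K → Convex ℝ K → (interior K).Nonempty →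
    (∀ σ : Equiv.Perm (Fin n), ∀ x ∈ K, (fun i => x (σ i)) ∈ K) →
    (∀ i : Fin n, ∀ x ∈ K, Function.update x i (-x i) ∈ K) →
    ∀ u : Fin (n + 1) → (Fin n → ℝ), AffineIndependent ℝ u →
      isotropicConst K < isotropicConst (convexHull ℝ (Set.range u)) := by
  intro n
  rcases n with _ | m
  · intro h; omega
  · intro hm K hc hv hi hp hf u hu
    exact OneSym.main hm ⟨hc, hv, hi, hp, hf⟩ hu

end Vale.Agent.Results.P254.OneSymmetricLarge
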