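import Vale.Agent.P254.L1.Main

/-!
P254: the strong isotropic constant inequality, strictly, for unit balls of finite-dimensional
subspaces of `L¹` (polars of zonoids) in every dimension at least 22.
-/

namespace Vale.Agent.Results.P254.SubspacesOfL1

open Vale.Agent.P254 MeasureTheory

/-- For `n ≥ 22` and a finite measure `μ` with a first moment, a bounded body
`{x | ∫ |u ⬝ (x - c)| dμ ≤ 1}` has isotropic constant strictly below that of a simplex. -/
theorem result : ∀ n : ℕ, 22 ≤ n → ∀ μ : Measure (Fin n → ℝ), IsFiniteMeasure μ →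
    Integrable id μ → ∀ c : Fin n → ℝ,
    Bornology.IsBounded {x : Fin n → ℝ | ∫ u, |dotProduct u (x - c)| ∂μ ≤ 1} →
    ∀ w : Fin (n + 1) → (Fin n → ℝ), AffineIndependent ℝ w →
      isotropicConst {x : Fin n → ℝ | ∫ u, |dotProduct u (x - c)| ∂μ ≤ 1} <
        isotropicConst (convexHull ℝ (Set.range w)) :=
  fun _ hn μ _ hμ c hb _ hw => L1.main hn μ hμ c hb hw

end Vale.Agent.Results.P254.SubspacesOfL1
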