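import Vale.Agent.P254.Slabs.Main

/-!
P254: the strong isotropic constant inequality, strictly, for centrally symmetric polytopes with
at most `23n/10` facets in every dimension, and with at most `16n/5` facets from dimension 100 on.
-/

namespace Vale.Agent.Results.P254.SymmetricFewFacets

open Vale.Agent.P254

/-- If `n ≥ 2` and `20 N ≤ 23 n`, or `n ≥ 100` and `5 N ≤ 8 n`, a bounded intersection of `N`
symmetric slabs with a common centre has isotropic constant strictly below that of a simplex. -/
theorem result : ∀ n N : ℕ, (2 ≤ n ∧ 20 * N ≤ 23 * n ∨ 100 ≤ n ∧ 5 * N ≤ 8 * n) →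
    ∀ (T : Matrix (Fin N) (Fin n) ℝ) (c : Fin n → ℝ),
    Bornology.IsBounded {x : Fin n → ℝ | ∀ i, |T.mulVec (x - c) i| ≤ 1} →
    ∀ u : Fin (n + 1) → (Fin n → ℝ), AffineIndependent ℝ u →
      isotropicConst {x : Fin n → ℝ | ∀ i, |T.mulVec (x - c) i| ≤ 1} <
        isotropicConst (convexHull ℝ (Set.range u)) :=
  fun _ _ hn T c hb _ hu => Slabs.main hn T c hb hu

end Vale.Agent.Results.P254.SymmetricFewFacets
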